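import Mathlib.Algebra.MonoidAlgebra.Defs
import Mathlib.Algebra.MonoidAlgebra.Module
import Mathlib.Algebra.MonoidAlgebra.Basic
import Mathlib.Order.Preorder.Finsupp
import Mathlib.Data.Real.Basic
import Mathlib.Algebra.Order.BigOperators.Group.Finset
import Mathlib.Algebra.BigOperators.Finsupp.Basic
import Mathlib.Algebra.Order.AbsoluteValue.Basic
import Mathlib.Tactic.Abel
import Mathlib.Tactic.Linarith
import Mathlib.Tactic.Ring

/-! The `ℓ¹` norm on a real monoid algebra and its probability elements. -/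

namespace Vale.Agent.P321.Poly

open MonoidAlgebra Finset

variable {M : Type*}

/-- The `ℓ¹` norm. -/
noncomputable def nrm (X : MonoidAlgebra ℝ M) : ℝ := X.coeff.sum fun _ v => |v|

/-- The total mass. -/
noncomputable def mass (X : MonoidAlgebra ℝ M) : ℝ := X.coeff.sum fun _ v => v

/-- A probability element: nonnegative coefficients of total mass one. -/
def Prb (X : MonoidAlgebra ℝ M) : Prop := (∀ a, 0 ≤ X.coeff a) ∧ mass X = 1

lemma nrm_eq_sum {X : MonoidAlgebra ℝ M} {s : Finset M} (h : X.coeff.support ⊆ s) :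
    nrm X = ∑ a ∈ s, |X.coeff a| :=
  Finsupp.sum_of_support_subset _ h _ fun _ _ => abs_zero

lemma sum_abs_le_nrm (X : MonoidAlgebra ℝ M) (s : Finset M) :
    ∑ a ∈ s, |X.coeff a| ≤ nrm X := by
  classical
  rw [nrm_eq_sum (subset_union_right (s₁ := s))]
  exact sum_le_sum_of_subset_of_nonneg subset_union_left fun a _ _ => abs_nonneg _

lemma nrm_nonneg (X : MonoidAlgebra ℝ M) : 0 ≤ nrm X := sum_nonneg fun a _ => abs_nonneg _

@[simp] lemma nrm_zero : nrm (0 : MonoidAlgebra ℝ M) = 0 := by simp [nrm]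

@[simp] lemma nrm_single (a : M) (v : ℝ) : nrm (single a v) = |v| := by
  simp [nrm, Finsupp.sum_single_index]

lemma nrm_smul (r : ℝ) (X : MonoidAlgebra ℝ M) : nrm (r • X) = |r| * nrm X := by
  classical
  rw [nrm_eq_sum (s := X.coeff.support) (by simpa using Finsupp.support_smul), nrm, Finsupp.sum,
    mul_sum]
  simp [abs_mul]

@[simp] lemma nrm_neg (X : MonoidAlgebra ℝ M) : nrm (-X) = nrm X := by
  classical
  rw [nrm_eq_sum (s := X.coeff.support) (by simp), nrm, Finsupp.sum]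
  simp

lemma nrm_add_le (X Y : MonoidAlgebra ℝ M) : nrm (X + Y) ≤ nrm X + nrm Y := by
  classical
  rw [nrm_eq_sum (s := X.coeff.support ∪ Y.coeff.support) (by simpa using Finsupp.support_add),
    nrm_eq_sum (X := X) subset_union_left, nrm_eq_sum (X := Y) subset_union_right,
    ← sum_add_distrib]
  exact sum_le_sum fun a _ => by simpa using abs_add_le (X.coeff a) (Y.coeff a)

lemma nrm_sub_le (X Y : MonoidAlgebra ℝ M) : nrm (X - Y) ≤ nrm X + nrm Y := by
  simpa [sub_eq_add_neg] using nrm_add_le X (-Y)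

lemma nrm_sum_le {ι : Type*} (s : Finset ι) (f : ι → MonoidAlgebra ℝ M) :
    nrm (∑ i ∈ s, f i) ≤ ∑ i ∈ s, nrm (f i) :=
  Finset.le_sum_of_subadditive nrm nrm_zero.le nrm_add_le s f

lemma mass_add (X Y : MonoidAlgebra ℝ M) : mass (X + Y) = mass X + mass Y := by
  simp [mass, Finsupp.sum_add_index']

lemma mass_sub (X Y : MonoidAlgebra ℝ M) : mass (X - Y) = mass X - mass Y := by
  have := mass_add (X - Y) Y
  rw [sub_add_cancel] at this
  linarith

@[simp] lemma mass_single (a : M) (v : ℝ) : mass (single a v) = v := by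
  simp [mass, Finsupp.sum_single_index]

lemma mass_sum {ι : Type*} (s : Finset ι) (f : ι → MonoidAlgebra ℝ M) :
    mass (∑ i ∈ s, f i) = ∑ i ∈ s, mass (f i) := by
  classical
  induction s using Finset.induction_on with
  | empty => simp [mass]
  | insert a s ha ih => rw [sum_insert ha, sum_insert ha, mass_add, ih]

lemma nrm_of_nonneg {X : MonoidAlgebra ℝ M} (h : ∀ a, 0 ≤ X.coeff a) : nrm X = mass X :=
  Finsupp.sum_congr fun a _ => abs_of_nonneg (h a)

lemma Prb.nrm_eq {X : MonoidAlgebra ℝ M} (h : Prb X) : nrm X = 1 :=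
  (nrm_of_nonneg h.1).trans h.2

variable [Monoid M]

lemma mul_eq_sum (X Y : MonoidAlgebra ℝ M) :
    X * Y = ∑ a ∈ X.coeff.support, ∑ b ∈ Y.coeff.support,
      single (a * b) (X.coeff a * Y.coeff b) := by
  rw [mul_def]; simp [Finsupp.sum]

lemma nrm_mul_le (X Y : MonoidAlgebra ℝ M) : nrm (X * Y) ≤ nrm X * nrm Y := by
  have h : nrm X * nrm Y
      = ∑ a ∈ X.coeff.support, ∑ b ∈ Y.coeff.support, |X.coeff a| * |Y.coeff b| := sum_mul_sum ..
  rw [mul_eq_sum, h]
  refine (nrm_sum_le _ _).trans (sum_le_sum fun a _ => (nrm_sum_le _ _).trans_eq ?_)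
  exact sum_congr rfl fun b _ => by rw [nrm_single, abs_mul]

lemma mass_mul (X Y : MonoidAlgebra ℝ M) : mass (X * Y) = mass X * mass Y := by
  rw [mul_eq_sum, mass_sum]
  simp only [mass_sum, mass_single]
  rw [mass, mass, Finsupp.sum, Finsupp.sum, sum_mul_sum]

lemma Prb.one : Prb (1 : MonoidAlgebra ℝ M) := by
  classical
  refine ⟨fun a => ?_, by simp [one_def]⟩
  rw [one_def, coeff_single, Finsupp.single_apply]
  split_ifs <;> norm_num

lemma Prb.mul {X Y : MonoidAlgebra ℝ M} (hX : Prb X) (hY : Prb Y) : Prb (X * Y) := by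
  classical
  refine ⟨fun c => ?_, by rw [mass_mul, hX.2, hY.2, mul_one]⟩
  rw [mul_eq_sum]
  simp only [coeff_sum, coeff_single, Finsupp.finsetSum_apply, Finsupp.single_apply]
  refine sum_nonneg fun a _ => sum_nonneg fun b _ => ?_
  split_ifs
  · exact mul_nonneg (hX.1 a) (hY.1 b)
  · exact le_rfl

lemma Prb.pow {X : MonoidAlgebra ℝ M} (hX : Prb X) : ∀ n : ℕ, Prb (X ^ n)
  | 0 => by rw [pow_zero]; exact Prb.one
  | n + 1 => by rw [pow_succ]; exact (hX.pow n).mul hX

lemma nrm_mul_prb_le {X Y : MonoidAlgebra ℝ M} (hY : Prb Y) : nrm (X * Y) ≤ nrm X := by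
  simpa [hY.nrm_eq] using nrm_mul_le X Y

lemma nrm_prb_mul_le {X Y : MonoidAlgebra ℝ M} (hX : Prb X) : nrm (X * Y) ≤ nrm Y := by
  simpa [hX.nrm_eq] using nrm_mul_le X Y

/-- Products of probability elements are stable. -/
lemma nrm_mul_sub_mul_le {X X' Y Y' : MonoidAlgebra ℝ M} (hX' : Prb X') (hY : Prb Y) :
    nrm (X * Y - X' * Y') ≤ nrm (X - X') + nrm (Y - Y') := by
  rw [show X * Y - X' * Y' = (X - X') * Y + X' * (Y - Y') by
    rw [sub_mul, mul_sub]; abel]
  exact (nrm_add_le _ _).trans (add_le_add (nrm_mul_prb_le hY) (nrm_prb_mul_le hX'))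

lemma nrm_pow_sub_pow_le {X Y : MonoidAlgebra ℝ M} (hX : Prb X) (hY : Prb Y) :
    ∀ n : ℕ, nrm (X ^ n - Y ^ n) ≤ n * nrm (X - Y)
  | 0 => by simp
  | n + 1 => by
    rw [pow_succ, pow_succ]
    refine (nrm_mul_sub_mul_le (hY.pow n) hX).trans ?_
    push_cast
    linarith [nrm_pow_sub_pow_le hX hY n]

lemma nrm_pow_mul_pow_sub_one_le {X : MonoidAlgebra ℝ M} (hX : Prb X) (T : ℕ) :
    ∀ n : ℕ, nrm (X ^ T * (X ^ n - 1)) ≤ n * nrm (X ^ T * (X - 1))
  | 0 => by simp
  | n + 1 => by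
    have e : X ^ T * (X ^ (n + 1) - 1)
        = X ^ T * (X ^ n - 1) + X ^ n * (X ^ T * (X - 1)) := by
      simp only [mul_sub, mul_one, ← pow_add, ← pow_succ, Nat.add_comm n T, ← mul_assoc,
        add_assoc]
      abel_nf
    rw [e]
    refine (nrm_add_le _ _).trans ((add_le_add (nrm_pow_mul_pow_sub_one_le hX T n)
      (nrm_prb_mul_le (hX.pow n))).trans_eq ?_)
    push_cast; ring

lemma nrm_pow_mul_antitone {X : MonoidAlgebra ℝ M} (hX : Prb X) {S T : ℕ} (h : S ≤ T)
    (Y : MonoidAlgebra ℝ M) : nrm (X ^ T * Y) ≤ nrm (X ^ S * Y) := by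
  rw [← Nat.sub_add_cancel h, pow_add, mul_assoc]
  exact nrm_prb_mul_le (hX.pow _)

end Vale.Agent.P321.Poly
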