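import Mathlib.Data.Nat.Choose.Sum
import Mathlib.Data.Real.Basic
import Mathlib.Algebra.Order.BigOperators.Ring.Finset
import Mathlib.Tactic.Linarith
import Mathlib.Tactic.LinearCombination
import Mathlib.Tactic.Ring
import Mathlib.Tactic.Positivity
import Mathlib.Tactic.FieldSimp

/-! Binomial averaging of a sequence, and the estimate on neighbouring middle coefficients. -/

namespace Vale.Agent.P321.Poly

open Finset

/-- The shift `f ↦ f (· + 1)`. -/
def sh (f : ℕ → ℝ) : ℕ → ℝ := fun i => f (i + 1)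

/-- `avg m f x = ∑ i, (m.choose i) * f (x + i)`. -/
def avg : ℕ → (ℕ → ℝ) → ℕ → ℝ
  | 0, f => f
  | m + 1, f => avg m (f + sh f)

/-- The indicator of `j`. -/
def dlt (j : ℕ) : ℕ → ℝ := fun i => if i = j then 1 else 0

lemma avg_eq : ∀ (m : ℕ) (f : ℕ → ℝ) (x : ℕ),
    avg m f x = ∑ i ∈ range (m + 1), (m.choose i : ℝ) * f (x + i)
  | 0, f, x => by simp [avg]
  | m + 1, f, x => by
    rw [avg, avg_eq m, sum_choose_succ_mul (fun i _ => f (x + i)) m, ← sum_add_distrib]
    exact sum_congr rfl fun i _ => by simp [sh, mul_add, add_assoc]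

lemma avg_sh (m : ℕ) (f : ℕ → ℝ) (x : ℕ) : avg m (sh f) x = avg m f (x + 1) := by
  simp [avg_eq, sh, add_right_comm]

lemma avg_succ (m : ℕ) (f : ℕ → ℝ) (x : ℕ) :
    avg (m + 1) f x = avg m f x + avg m f (x + 1) := by
  rw [avg, ← avg_sh, avg_eq, avg_eq, avg_eq, ← sum_add_distrib]
  exact sum_congr rfl fun i _ => by simp [mul_add]

lemma avg_avg : ∀ (b m : ℕ) (f : ℕ → ℝ) (x : ℕ), avg b (avg m f) x = avg (b + m) f x
  | 0, m, f, x => by simp [avg]
  | b + 1, m, f, x => by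
    rw [avg_succ, avg_avg b, avg_avg b, Nat.add_right_comm, avg_succ]

lemma abs_avg_le (m : ℕ) (f : ℕ → ℝ) (x : ℕ) : |avg m f x| ≤ avg m (fun i => |f i|) x := by
  rw [avg_eq, avg_eq]
  refine (abs_sum_le_sum_abs _ _).trans_eq (sum_congr rfl fun i _ => ?_)
  rw [abs_mul, Nat.abs_cast]

lemma avg_mono (m x : ℕ) {f g : ℕ → ℝ} (h : ∀ i ≤ m, f (x + i) ≤ g (x + i)) :
    avg m f x ≤ avg m g x := by
  rw [avg_eq, avg_eq]
  exact sum_le_sum fun i hi => mul_le_mul_of_nonneg_left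
    (h i (by simpa [Nat.lt_succ_iff] using hi)) (Nat.cast_nonneg _)

lemma avg_nonneg (m x : ℕ) {f : ℕ → ℝ} (h : ∀ i, 0 ≤ f i) : 0 ≤ avg m f x := by
  rw [avg_eq]
  exact sum_nonneg fun i _ => mul_nonneg (Nat.cast_nonneg _) (h _)

lemma avg_dlt (m j x : ℕ) (h : x ≤ j) : avg m (dlt j) x = m.choose (j - x) := by
  rw [avg_eq, sum_eq_single (j - x)]
  · simp [dlt, Nat.add_sub_cancel' h]
  · intro i _ hi
    simp [dlt, show x + i ≠ j by omega]
  · intro hi
    simp only [mem_range, not_lt] at hi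
    simp [Nat.choose_eq_zero_of_lt (show m < j - x by omega)]

lemma avg_id_mul : ∀ (b : ℕ) (g : ℕ → ℝ) (x : ℕ),
    avg (b + 1) (fun i => (i : ℝ) * g i) x
      = x * avg (b + 1) g x + (b + 1 : ℕ) * avg b g (x + 1)
  | 0, g, x => by
    simp only [avg, sh, Pi.add_apply]; push_cast; ring
  | b + 1, g, x => by
    rw [avg_succ (b + 1) (fun i => (i : ℝ) * g i), avg_id_mul b, avg_id_mul b,
      avg_succ (b + 1) g x, avg_succ b g (x + 1)]
    push_cast; ring

/-- Second moment of a hypergeometric variable. -/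
lemma moment {t b m : ℕ} (hbt : b ≤ t) (h : b + m = 2 * t + 1) :
    avg b (fun u => (2 * (u : ℝ) - b) ^ 2 * avg m (dlt (t + 1)) u) 0
      ≤ b * (2 * t + 1).choose t := by
  set μ := avg m (dlt (t + 1))
  have hC : ((2 * t + 1).choose (t + 1) : ℝ) = (2 * t + 1).choose t := by
    exact_mod_cast Nat.choose_symm_half t
  have h0 : avg b μ 0 = (2 * t + 1).choose t := by
    rw [avg_avg, h, avg_dlt _ _ _ (Nat.zero_le _), Nat.sub_zero, hC]
  rcases b with _ | _ | b
  · simp [avg]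
  · rw [← h0, show (fun u : ℕ => (2 * (u : ℝ) - (0 + 1 : ℕ)) ^ 2 * μ u)
      = fun u : ℕ => (2 * (u : ℝ) - 1) ^ 2 * μ u by simp]
    simp only [avg, sh, Pi.add_apply]
    norm_num
  have h1 : avg (b + 1) μ 1 = (2 * t).choose t := by
    rw [avg_avg, show b + 1 + m = 2 * t by omega, avg_dlt _ _ _ (by omega),
      show t + 1 - 1 = t by omega]
  have h2 : avg b μ 2 = (2 * t - 1).choose (t - 1) := by
    rw [avg_avg, show b + m = 2 * t - 1 by omega, avg_dlt _ _ _ (by omega),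
      show t + 1 - 2 = t - 1 by omega]
  have e1 : ((2 * t).choose t : ℝ) = 2 * (2 * t - 1).choose (t - 1) := by
    obtain ⟨s, rfl⟩ : ∃ s, t = s + 1 := ⟨t - 1, by omega⟩
    rw [show 2 * (s + 1) = (2 * s + 1) + 1 by ring, Nat.choose_succ_succ]
    simp only [Nat.add_sub_cancel, Nat.succ_eq_add_one]
    push_cast
    have : ((2 * s + 1).choose (s + 1) : ℝ) = (2 * s + 1).choose s := by
      exact_mod_cast Nat.choose_symm_half s
    rw [this]; ring
  have e2 : ((2 * t + 1).choose t : ℝ) ≤ 2 * (2 * t).choose t := by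
    obtain ⟨s, rfl⟩ : ∃ s, t = s + 1 := ⟨t - 1, by omega⟩
    have hm := Nat.choose_le_middle s (2 * (s + 1))
    rw [show 2 * (s + 1) / 2 = s + 1 by omega] at hm
    rw [Nat.choose_succ_succ]
    simp only [Nat.succ_eq_add_one]
    exact_mod_cast (by omega : (2 * (s + 1)).choose s + (2 * (s + 1)).choose (s + 1)
      ≤ 2 * (2 * (s + 1)).choose (s + 1))
  have m1 := avg_id_mul (b + 1) μ 0
  have m2 := avg_id_mul (b + 1) (fun i => (i : ℝ) * μ i) 0
  rw [avg_id_mul b] at m2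
  have split : avg (b + 1 + 1) (fun u : ℕ => (2 * (u : ℝ) - (b + 1 + 1 : ℕ)) ^ 2 * μ u) 0
      = 4 * avg (b + 1 + 1) (fun i => (i : ℝ) * ((i : ℝ) * μ i)) 0
        - 4 * (b + 1 + 1 : ℕ) * avg (b + 1 + 1) (fun i => (i : ℝ) * μ i) 0
        + (b + 1 + 1 : ℕ) ^ 2 * avg (b + 1 + 1) μ 0 := by
    simp only [avg_eq, mul_sum, ← sum_sub_distrib, ← sum_add_distrib]
    exact sum_congr rfl fun i _ => by push_cast; ring
  rw [split, m2, m1, h0, h1, h2, e1]
  rw [e1] at e2
  push_cast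
  nlinarith [mul_nonneg (mul_nonneg (show (0:ℝ) ≤ (b:ℝ) + 1 + 1 by positivity)
    (show (0:ℝ) ≤ (b:ℝ) + 1 by positivity)) (sub_nonneg.2 e2)]

/-- The estimate on neighbouring middle binomial coefficients, averaged. -/
lemma avg_abs_diff {lam b m : ℕ} (hl : 1 ≤ lam) (hb : 2 * b ≤ lam ^ 2)
    (h : b + m = 2 * lam ^ 2 + 1) :
    avg b (fun u => |avg m (dlt (lam ^ 2 + 1) - dlt (lam ^ 2)) u|) 0
      ≤ 3 / (2 * (lam : ℝ)) * (2 * lam ^ 2 + 1).choose (lam ^ 2) := by
  set t := lam ^ 2 with ht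
  set C := ((2 * t + 1).choose t : ℝ)
  have hl0 : (0 : ℝ) < lam := by exact_mod_cast hl
  have htR : (t : ℝ) = (lam : ℝ) ^ 2 := by simp [ht]
  clear_value t
  have hlin : avg m (dlt (t + 1) - dlt t) = avg m (dlt (t + 1)) - avg m (dlt t) := by
    funext u; simp [avg_eq, mul_sub]
  have pt : ∀ u ≤ b, |avg m (dlt (t + 1) - dlt t) u|
      ≤ 1 / (t * lam) * ((2 * (u : ℝ) - b) ^ 2 * avg m (dlt (t + 1)) u)
        + lam / t * avg m (dlt (t + 1)) u := by
    intro u hu
    rw [hlin, Pi.sub_apply, avg_dlt _ _ _ (by omega), avg_dlt _ _ _ (by omega)]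
    obtain ⟨k, rfl⟩ : ∃ k, t = u + k := ⟨t - u, by omega⟩
    rw [show u + k + 1 - u = k + 1 by omega, Nat.add_sub_cancel_left]
    obtain ⟨l, rfl⟩ : ∃ l, m = k + l := ⟨m - k, by omega⟩
    have e : ((k + l).choose (k + 1) : ℝ) * (k + 1) = (k + l).choose k * l := by
      have := Nat.choose_succ_right_eq (k + l) k
      rw [Nat.add_sub_cancel_left] at this
      exact_mod_cast this
    set P := ((k + l).choose (k + 1) : ℝ)
    set Q := ((k + l).choose k : ℝ)
    have hP : 0 ≤ P := Nat.cast_nonneg _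
    have hl2 : ((u + k : ℕ) : ℝ) ≤ 2 * l := by
      exact_mod_cast (show u + k ≤ 2 * l by omega)
    have hlv : (l : ℝ) - k - 1 = 2 * (u : ℝ) - b := by
      have : ((b + (k + l) : ℕ) : ℝ) = (2 * (u + k) + 1 : ℕ) := by rw [h]
      push_cast at this
      linarith
    have htpos : (0 : ℝ) < (u + k : ℕ) := by rw [htR]; positivity
    set v := 2 * (u : ℝ) - b
    have hmul : |P - Q| * l = P * |v| := by
      calc |P - Q| * (l : ℝ) = |(P - Q) * l| := by rw [abs_mul, Nat.abs_cast]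
        _ = |P * v| := by rw [← hlv]; congr 1; linear_combination e
        _ = P * |v| := by rw [abs_mul, abs_of_nonneg hP]
    have hv : 2 * |v| ≤ v ^ 2 / lam + lam := by
      rw [div_add' _ _ _ hl0.ne', le_div_iff₀ hl0, ← sq_abs v]
      nlinarith [sq_nonneg (|v| - lam)]
    have key : |P - Q| * (u + k : ℕ) ≤ P * (v ^ 2 / lam + lam) := by
      calc |P - Q| * (u + k : ℕ) ≤ |P - Q| * (2 * l) :=
            mul_le_mul_of_nonneg_left hl2 (abs_nonneg _)
        _ = P * (2 * |v|) := by linear_combination 2 * hmul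
        _ ≤ _ := mul_le_mul_of_nonneg_left hv hP
    rw [← le_div_iff₀ htpos] at key
    refine key.trans_eq ?_
    field_simp
  refine (avg_mono _ _ (g := fun u => 1 / (t * lam) * ((2 * (u : ℝ) - b) ^ 2
    * avg m (dlt (t + 1)) u) + lam / t * avg m (dlt (t + 1)) u)
    fun i hi => by simpa using pt i hi).trans ?_
  have lin : avg b (fun u => 1 / (t * lam) * ((2 * (u : ℝ) - b) ^ 2 * avg m (dlt (t + 1)) u)
      + lam / t * avg m (dlt (t + 1)) u) 0
      = 1 / (t * lam) * avg b (fun u => (2 * (u : ℝ) - b) ^ 2 * avg m (dlt (t + 1)) u) 0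
        + lam / t * avg b (avg m (dlt (t + 1))) 0 := by
    simp only [avg_eq b, mul_sum, ← sum_add_distrib]
    exact sum_congr rfl fun i _ => by ring
  have h0 : avg b (avg m (dlt (t + 1))) 0 = C := by
    rw [avg_avg, h, avg_dlt _ _ _ (Nat.zero_le _), Nat.sub_zero]
    simp only [C]; exact_mod_cast Nat.choose_symm_half t
  have hm := moment (t := t) (b := b) (m := m) (by omega) h
  have hb' : 2 * (b : ℝ) ≤ t := by exact_mod_cast hb
  rw [lin, h0]
  calc 1 / (t * lam) * avg b (fun u => (2 * (u : ℝ) - b) ^ 2 * avg m (dlt (t + 1)) u) 0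
        + lam / t * C ≤ 1 / (t * lam) * (t / 2 * C) + lam / t * C := by
        refine add_le_add (mul_le_mul_of_nonneg_left (hm.trans ?_) (by positivity)) le_rfl
        exact mul_le_mul_of_nonneg_right (by linarith) (Nat.cast_nonneg _)
    _ = _ := by rw [htR]; field_simp; ring

/-- The averaged difference is never more than twice the middle coefficient. -/
lemma avg_abs_diff_le {t b m : ℕ} (h : b + m = 2 * t + 1) :
    avg b (fun u => |avg m (dlt (t + 1) - dlt t) u|) 0 ≤ 2 * (2 * t + 1).choose t := by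
  refine (avg_mono _ _ (g := avg m (dlt (t + 1) + dlt t)) fun i _ => ?_).trans ?_
  · refine (abs_avg_le _ _ _).trans (avg_mono _ _ fun j _ => ?_)
    simp only [Pi.sub_apply, Pi.add_apply, dlt]
    split_ifs <;> norm_num
  · have hlin : avg (b + m) (dlt (t + 1) + dlt t) 0
        = avg (b + m) (dlt (t + 1)) 0 + avg (b + m) (dlt t) 0 := by
      simp [avg_eq, mul_add, sum_add_distrib]
    rw [avg_avg, hlin, h, avg_dlt _ _ _ (Nat.zero_le _), avg_dlt _ _ _ (Nat.zero_le _),
      Nat.sub_zero, Nat.sub_zero, Nat.choose_symm_half]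
    exact le_of_eq (two_mul _).symm

end Vale.Agent.P321.Poly
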