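import Vale.Agent.P321.Poly.Algebra
import Vale.Agent.P321.Trace
import Mathlib.Algebra.FreeMonoid.Basic
import Mathlib.Algebra.Order.Ring.Pow
import Mathlib.Algebra.BigOperators.Ring.Finset
import Mathlib.Algebra.BigOperators.Field
import Mathlib.Tactic.NormNum

/-! The deletion channel as a product in the algebra of words, and the two-point bound in total
variation. -/

namespace Vale.Agent.P321.Poly

open MonoidAlgebra Finset

/-- The law of the trace of a word, as a product. -/
noncomputable def chan (q : ℝ) (b : Bool) : MonoidAlgebra ℝ (FreeMonoid Bool) :=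
  single 1 q + single (FreeMonoid.of b) (1 - q)

/-- The law of the trace of a word. -/
noncomputable def law (q : ℝ) (x : List Bool) : MonoidAlgebra ℝ (FreeMonoid Bool) :=
  (x.map (chan q)).prod

variable {q : ℝ}

lemma law_append (x y : List Bool) : law q (x ++ y) = law q x * law q y := by
  simp [law]

/-- `a` copies of a word. -/
def rep (a : ℕ) (x : List Bool) : List Bool := (List.replicate a x).flatten

lemma length_rep (a : ℕ) (x : List Bool) : (rep a x).length = a * x.length := by
  simp [rep]

lemma law_rep (x : List Bool) : ∀ a, law q (rep a x) = law q x ^ a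
  | 0 => by simp [rep, law]
  | a + 1 => by
    rw [show rep (a + 1) x = x ++ rep a x by simp [rep, List.replicate_succ], law_append,
      law_rep x a, pow_succ']

lemma prb_chan (h0 : 0 ≤ q) (h1 : q ≤ 1) (b : Bool) : Prb (chan q b) := by
  classical
  refine ⟨fun a => ?_, by rw [chan, mass_add, mass_single, mass_single]; ring⟩
  simp only [chan, coeff_add, coeff_single, Finsupp.add_apply, Finsupp.single_apply]
  split_ifs <;> linarith

lemma prb_law (h0 : 0 ≤ q) (h1 : q ≤ 1) : ∀ x, Prb (law q x)
  | [] => by simpa [law] using Prb.one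
  | a :: x => by
    simpa [law] using (prb_chan h0 h1 a).mul (prb_law h0 h1 x)

lemma coeff_law : ∀ x t : List Bool,
    (law q x).coeff (FreeMonoid.ofList t) = traceProb q x t
  | [], [] => by simp [law, one_def]
  | [], b :: t => by
    simp [law, one_def, Finsupp.single_apply]
  | a :: x, t => by
    rw [show law q (a :: x) = chan q a * law q x by simp [law], chan, add_mul, coeff_add,
      Finsupp.add_apply, coeff_single_one_mul, coeff_law x t]
    cases t with
    | nil =>
      rw [coeff_single_mul_of_forall_mul_ne, tp_cons_nil, add_zero]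
      intro d hd
      simpa using congrArg FreeMonoid.toList hd
    | cons b t =>
      rw [tp_cons_cons]
      congr 1
      split_ifs with h
      · subst h
        rw [coeff_single_mul_eq_mul_coeff (FreeMonoid.ofList t), coeff_law x t]
        intro d _
        constructor
        · intro hd
          have := congrArg FreeMonoid.toList hd
          simp only [FreeMonoid.toList_mul, FreeMonoid.toList_of, FreeMonoid.toList_ofList,
            List.singleton_append, List.cons.injEq, true_and] at this
          exact FreeMonoid.toList.injective this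
        · rintro rfl
          rfl
      · rw [coeff_single_mul_of_forall_mul_ne]
        intro d hd
        have := congrArg FreeMonoid.toList hd
        simp only [FreeMonoid.toList_mul, FreeMonoid.toList_of, FreeMonoid.toList_ofList,
          List.singleton_append, List.cons.injEq] at this
        exact h this.1

/-- Total variation on traces is bounded by the norm of the difference of the laws. -/
lemma sum_abs_le (x y : List Bool) (n : ℕ) :
    ∑ t ∈ traces n, |traceProb q x t - traceProb q y t| ≤ nrm (law q x - law q y) := by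
  classical
  refine le_trans (le_of_eq ?_)
    (sum_abs_le_nrm (law q x - law q y) ((traces n).image FreeMonoid.ofList))
  rw [sum_image FreeMonoid.ofList.injective.injOn]
  simp [coeff_law]

/-- An estimator that tells apart two strings at distance `d` needs about `1/d` traces. -/
lemma two_point_tv (h0 : 0 ≤ q) (h1 : q ≤ 1) {n m : ℕ}
    (est : (Fin m → List Bool) → (Fin n → Bool) → ℝ) (he : ∀ T y, 0 ≤ est T y)
    (hs : ∀ T, ∑ y, est T y = 1)
    (hc : ∀ x : Fin n → Bool, 2 / 3 ≤ ∑ T ∈ Fintype.piFinset (fun _ : Fin m => traces n),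
      (∏ i, traceProb q (List.ofFn x) (T i)) * est T x)
    {x y : Fin n → Bool} (hxy : x ≠ y) {d : ℝ}
    (hd : nrm (law q (List.ofFn x) - law q (List.ofFn y)) ≤ d) :
    2 / 3 ≤ m * d := by
  set Ω := Fintype.piFinset (fun _ : Fin m => traces n)
  set P := fun t => traceProb q (List.ofFn x) t
  set Q := fun t => traceProb q (List.ofFn y) t
  have hP : ∀ t, 0 ≤ P t := tp_nonneg h0 h1 _
  have hQ : ∀ t, 0 ≤ Q t := tp_nonneg h0 h1 _
  set U := fun T : Fin m → List Bool => ∏ i, P (T i)
  set V := fun T : Fin m → List Bool => ∏ i, Q (T i)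
  have hU : ∀ T, 0 ≤ U T := fun T => prod_nonneg fun i _ => hP _
  have hV : ∀ T, 0 ≤ V T := fun T => prod_nonneg fun i _ => hQ _
  have tot : ∀ f : List Bool → ℝ, ∑ T ∈ Ω, ∏ i, f (T i) = (∑ t ∈ traces n, f t) ^ m := by
    intro f
    rw [← Finset.prod_univ_sum (fun _ : Fin m => traces n) (fun _ => f), prod_const, card_univ,
      Fintype.card_fin]
  have sP : ∑ t ∈ traces n, P t = 1 := sum_traces_tp _ _ (by simp)
  have sQ : ∑ t ∈ traces n, Q t = 1 := sum_traces_tp _ _ (by simp)
  have smax : 4 / 3 ≤ ∑ T ∈ Ω, max (U T) (V T) := by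
    calc (4 : ℝ) / 3 ≤ ∑ T ∈ Ω, (U T * est T x + V T * est T y) := by
          rw [sum_add_distrib]; linarith [hc x, hc y]
      _ ≤ _ := by
          refine sum_le_sum fun T _ => ?_
          have hxy1 : est T x + est T y ≤ 1 := by
            rw [← hs T, ← sum_pair hxy]
            exact sum_le_sum_of_subset_of_nonneg (subset_univ _) fun z _ _ => he T z
          have a1 := mul_le_mul_of_nonneg_right (le_max_left (U T) (V T)) (he T x)
          have a2 := mul_le_mul_of_nonneg_right (le_max_right (U T) (V T)) (he T y)
          have a3 := mul_le_mul_of_nonneg_left hxy1 ((hU T).trans (le_max_left (U T) (V T)))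
          linarith
  have smin : (∑ t ∈ traces n, min (P t) (Q t)) ^ m ≤ ∑ T ∈ Ω, min (U T) (V T) := by
    rw [← tot fun t => min (P t) (Q t)]
    exact sum_le_sum fun T _ => le_min
      (prod_le_prod (fun i _ => le_min (hP _) (hQ _)) fun i _ => min_le_left _ _)
      (prod_le_prod (fun i _ => le_min (hP _) (hQ _)) fun i _ => min_le_right _ _)
  have ssum : ∑ T ∈ Ω, min (U T) (V T) + ∑ T ∈ Ω, max (U T) (V T) = 2 := by
    simp_rw [← sum_add_distrib, min_add_max]
    rw [sum_add_distrib, tot P, tot Q, sP, sQ, one_pow]; norm_num
  set D := ∑ t ∈ traces n, |P t - Q t|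
  have hD : D ≤ d := (sum_abs_le _ _ n).trans hd
  have hmin : ∑ t ∈ traces n, min (P t) (Q t) = 1 - D / 2 := by
    have e : ∀ t, min (P t) (Q t) = (P t + Q t) / 2 - |P t - Q t| / 2 := fun t => by
      rcases le_total (P t) (Q t) with h | h
      · rw [min_eq_left h, abs_of_nonpos (by linarith)]; ring
      · rw [min_eq_right h, abs_of_nonneg (by linarith)]; ring
    simp_rw [e]
    rw [sum_sub_distrib, ← sum_div, ← sum_div, sum_add_distrib, sP, sQ]
    ring
  have hD2 : D ≤ 2 := by
    have : 0 ≤ ∑ t ∈ traces n, min (P t) (Q t) := sum_nonneg fun t _ => le_min (hP t) (hQ t)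
    linarith
  have hb := one_add_mul_le_pow (show (-2 : ℝ) ≤ -(D / 2) by linarith) m
  rw [← sub_eq_add_neg 1 (D / 2), ← hmin] at hb
  have hm : (m : ℝ) * D ≤ m * d := mul_le_mul_of_nonneg_left hD (Nat.cast_nonneg m)
  linarith

end Vale.Agent.P321.Poly
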