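import Vale.Agent.P321.Poly.Step
import Mathlib.Data.Nat.Cast.Field
import Mathlib.Data.Nat.Cast.Order.Field

/-! Iterating the step: the number of traces grows faster than any given power once the deletion
probability is close enough to one. -/

namespace Vale.Agent.P321.Poly

open MonoidAlgebra Finset

variable {q : ℝ}

/-- The auxiliary quadratic. -/
def quad (k : ℕ) : ℝ := (k : ℝ) ^ 2 + 5 * k + 8

/-- The state after `k` levels: words of length `2 ^ w`, laws at distance at most `1 / 2 ^ z`,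
smooth from the power `2 ^ v` on, and close pairs in every smaller length. -/
def State (q : ℝ) (A : ℕ) (R0 k : ℕ) : Prop :=
  ∃ v z w : ℕ, k ≤ w ∧ w ≤ v
    ∧ (v : ℝ) ≤ 2 ^ k * (289 * R0 - R0 / (k + 1)) - 36 * R0 * quad k
    ∧ 2 ^ k * ((R0 : ℝ) ^ 2 - 32 * R0) + 4 * R0 * quad k ≤ (z : ℝ)
    ∧ (z : ℝ) ≤ 2 ^ k * (R0 : ℝ) ^ 2
    ∧ (∃ X Y : List Bool, X.length = 2 ^ w ∧ Y.length = 2 ^ w ∧ X ≠ Y
        ∧ nrm (law q Y - law q X) ≤ 1 / 2 ^ z
        ∧ nrm (law q X ^ (2 ^ v + 1) - law q X ^ 2 ^ v) ≤ 1 / 4)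
    ∧ ∀ n, 1 ≤ n → n < 2 ^ w → ∃ x y : List Bool, x.length = n ∧ y.length = n ∧ x ≠ y
        ∧ nrm (law q x - law q y) ≤ 1 / (n : ℝ) ^ (A + 1)

lemma state_zero (h0 : 0 ≤ q) (h1 : q ≤ 1) (A : ℕ) {R0 : ℕ} (hR : 2 ≤ R0)
    (hq : 1 - q ≤ 1 / 2 ^ (R0 ^ 2 + 1)) : State q A R0 0 := by
  refine ⟨0, R0 ^ 2, 0, le_rfl, le_rfl, ?_, ?_, ?_, ⟨[false], [true], rfl, rfl, by simp, ?_, ?_⟩, ?_⟩
  · simp [quad]; ring_nf; exact le_rfl
  · simp [quad]; ring_nf; exact le_rfl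
  · simp
  · have e : law q [true] - law q [false]
        = single (FreeMonoid.of true) (1 - q) - single (FreeMonoid.of false) (1 - q) := by
      simp [law, chan]
    rw [e]
    refine (nrm_sub_le _ _).trans ?_
    rw [nrm_single, nrm_single, abs_of_nonneg (by linarith)]
    rw [pow_succ, ← div_div] at hq
    linarith
  · have hp := prb_law h0 h1 [false]
    have e : law q [false] - 1 = single (FreeMonoid.of false) (1 - q) - single 1 (1 - q) := by
      simp only [law, chan, List.map_cons, List.map_nil, List.prod_cons, List.prod_nil, mul_one]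
      rw [one_def]
      rw [show (single 1 (1 : ℝ) : MonoidAlgebra ℝ (FreeMonoid Bool))
        = single 1 q + single 1 (1 - q) by rw [← single_add, add_sub_cancel]]
      abel
    rw [pow_succ, ← mul_sub_one]
    refine (nrm_prb_mul_le (hp.pow _)).trans ?_
    rw [e]
    refine (nrm_sub_le _ _).trans ?_
    rw [nrm_single, nrm_single, abs_of_nonneg (by linarith)]
    have : (1 : ℝ) / 2 ^ (R0 ^ 2 + 1) ≤ 1 / 2 ^ 3 := by
      gcongr
      · norm_num
      · nlinarith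
    norm_num at this hq ⊢
    linarith
  · intro n h h'; simp at h'; omega

lemma quad_nonneg (k : ℕ) : 0 ≤ quad k := by simp only [quad]; positivity

lemma pad_pair (h0 : 0 ≤ q) (h1 : q ≤ 1) {X Y : List Bool} {L n : ℕ} (hX : X.length = L)
    (hY : Y.length = L) (hne : X ≠ Y) (hn : L ≤ n) :
    ∃ x y : List Bool, x.length = n ∧ y.length = n ∧ x ≠ y
      ∧ nrm (law q x - law q y) ≤ nrm (law q Y - law q X) := by
  refine ⟨Y ++ List.replicate (n - L) false, X ++ List.replicate (n - L) false,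
    by simp [hY]; omega, by simp [hX]; omega, fun h => hne (List.append_cancel_right h).symm, ?_⟩
  rw [law_append, law_append, ← sub_mul]
  exact nrm_mul_prb_le (prb_law h0 h1 _)

lemma cover_bound {A k R0 v' z n : ℕ} (hR0' : (R0 : ℝ) = 5000 * ((A : ℝ) + 1))
    (hvb : (v' : ℝ) ≤ 578 * 2 ^ k * R0) (hzb : 2 ^ k * ((R0 : ℝ) ^ 2 - 32 * R0) ≤ (z : ℝ))
    (hn' : n ≤ 2 ^ v') (hn : 1 ≤ n) : (1 : ℝ) / 2 ^ z ≤ 1 / (n : ℝ) ^ (A + 1) := by
  have hA0 : (0 : ℝ) ≤ A := Nat.cast_nonneg A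
  have h5 : 2 ^ k * (R0 : ℝ) * (578 * ((A : ℝ) + 1)) ≤ 2 ^ k * R0 * ((R0 : ℝ) - 32) :=
    mul_le_mul_of_nonneg_left (by linarith) (by positivity)
  have h6 := mul_le_mul_of_nonneg_right hvb (show (0 : ℝ) ≤ (A : ℝ) + 1 by positivity)
  have h7 : ((v' * (A + 1) : ℕ) : ℝ) ≤ z := by push_cast; linarith
  have hzA : v' * (A + 1) ≤ z := by exact_mod_cast h7
  have hpow : n ^ (A + 1) ≤ 2 ^ z := by
    calc n ^ (A + 1) ≤ (2 ^ v') ^ (A + 1) := Nat.pow_le_pow_left hn' _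
      _ = 2 ^ (v' * (A + 1)) := (pow_mul _ _ _).symm
      _ ≤ 2 ^ z := Nat.pow_le_pow_right two_pos hzA
  apply one_div_le_one_div_of_le (by positivity)
  exact_mod_cast hpow

lemma exists_ofFn {n : ℕ} {x : List Bool} (h : x.length = n) :
    ∃ f : Fin n → Bool, List.ofFn f = x := by
  subst h
  exact ⟨x.get, List.ofFn_get x⟩

lemma state_succ (h0 : 0 ≤ q) (h1 : q ≤ 1) {A R0 k : ℕ} (hR0 : R0 = 5000 * (A + 1))
    (h : State q A R0 k) : State q A R0 (k + 1) := by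
  obtain ⟨v, z, w, hkw, hwv, hv, hz, hz', ⟨X, Y, hX, hY, hne, hd, hc⟩, hcov⟩ := h
  set R := R0 * ((k + 1) * (k + 2)) with hRdef
  have hR1 : 1 ≤ R := by
    rw [hRdef, hR0]
    exact Nat.one_le_iff_ne_zero.2 (by positivity)
  set d := z / R with hddef
  obtain ⟨v', hv'⟩ : ∃ v', v' = 2 * v + 2 * (R + d + 1) + R + 31 := ⟨_, rfl⟩
  have hR0' : (R0 : ℝ) = 5000 * ((A : ℝ) + 1) := by rw [hR0]; push_cast; ring
  have hR0pos : (5000 : ℝ) ≤ R0 := by
    rw [hR0']; have : (0 : ℝ) ≤ A := Nat.cast_nonneg A; linarith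
  have hRR : (R : ℝ) = R0 * ((k + 1) * (k + 2)) := by rw [hRdef]; push_cast; ring
  have hR1' : (1 : ℝ) ≤ R := by exact_mod_cast hR1
  have hk1 : (0 : ℝ) < (k : ℝ) + 1 := by positivity
  have hk2 : (0 : ℝ) < (k : ℝ) + 2 := by positivity
  have h2k : (0 : ℝ) < 2 ^ k := by positivity
  have hdR : (d : ℝ) ≤ 2 ^ k * ((R0 : ℝ) / (k + 1) - R0 / (k + 2)) := by
    refine (Nat.cast_div_le (m := z) (n := R)).trans ?_
    rw [div_le_iff₀ (by linarith), hRR]
    refine hz'.trans (le_of_eq ?_)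
    field_simp
    ring
  have hv'R : (v' : ℝ) ≤ 2 * v + 36 * R + 2 * d := by
    rw [hv']; push_cast; linarith
  have hvn : (v' : ℝ)
      ≤ 2 ^ (k + 1) * (289 * R0 - R0 / ((k + 1 : ℕ) + 1)) - 36 * R0 * quad (k + 1) := by
    refine hv'R.trans ((add_le_add (add_le_add (mul_le_mul_of_nonneg_left hv zero_le_two) le_rfl)
      (mul_le_mul_of_nonneg_left hdR zero_le_two)).trans (le_of_eq ?_))
    rw [hRR, pow_succ]
    simp only [quad]
    push_cast
    rw [show (k : ℝ) + 1 + 1 = k + 2 by ring]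
    ring
  have hvb : (v' : ℝ) ≤ 578 * 2 ^ k * R0 := by
    have hq' := quad_nonneg (k + 1)
    have : (0 : ℝ) ≤ (R0 : ℝ) / ((k + 1 : ℕ) + 1) := by positivity
    rw [pow_succ] at hvn
    nlinarith
  have hzb : 2 ^ k * ((R0 : ℝ) ^ 2 - 32 * R0) ≤ (z : ℝ) := by
    have hq' := quad_nonneg k
    nlinarith
  have hcond : v' + R + 5 ≤ z := by
    have hv3 : (R : ℝ) + 5 ≤ v' := by
      exact_mod_cast (show R + 5 ≤ v' by omega)
    have h5 : 2 ^ k * R0 * 4968 ≤ 2 ^ k * R0 * ((R0 : ℝ) - 32) :=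
      mul_le_mul_of_nonneg_left (by linarith) (by positivity)
    have : ((v' + R + 5 : ℕ) : ℝ) ≤ z := by
      push_cast
      nlinarith [show (0 : ℝ) ≤ 2 ^ k * R0 by positivity]
    exact_mod_cast this
  obtain ⟨X', Y', hX', hY', hne', hd', hc'⟩ :=
    step h0 h1 hR1 hX hY hne hd hc (hv' ▸ hcond)
  rw [← hddef, ← hv'] at hc'
  refine ⟨v', 2 * z - 2 * R - 2, w + (v + 2 * (R + d + 1) + R + 13), by omega, by omega, hvn,
    ?_, ?_, ⟨X', Y', hX', hY', hne', hd', hc'⟩, fun n hn hn' => ?_⟩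
  · have hsub : 2 * R + 2 ≤ 2 * z := by omega
    rw [show 2 * z - 2 * R - 2 = 2 * z - (2 * R + 2) by omega, Nat.cast_sub hsub]
    have e : 2 ^ (k + 1) * ((R0 : ℝ) ^ 2 - 32 * R0) + 4 * R0 * quad (k + 1)
        = 2 * (2 ^ k * ((R0 : ℝ) ^ 2 - 32 * R0) + 4 * R0 * quad k) - 4 * R := by
      rw [hRR, pow_succ]; simp only [quad]; push_cast; ring
    rw [e]
    push_cast
    linarith
  · refine le_trans (Nat.cast_le.2 (show 2 * z - 2 * R - 2 ≤ 2 * z by omega)) ?_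
    push_cast
    rw [pow_succ]
    linarith
  · by_cases hnw : n < 2 ^ w
    · exact hcov n hn hnw
    obtain ⟨x, y, hx, hy, hxy, hxyd⟩ := pad_pair h0 h1 hX hY hne (not_lt.1 hnw)
    refine ⟨x, y, hx, hy, hxy, hxyd.trans (hd.trans ?_)⟩
    exact cover_bound (A := A) (k := k) (R0 := R0) hR0' hvb hzb
      (hn'.le.trans (Nat.pow_le_pow_right two_pos (by omega))) hn

lemma state_all (h0 : 0 ≤ q) (h1 : q ≤ 1) {A R0 : ℕ} (hR0 : R0 = 5000 * (A + 1))
    (hq : 1 - q ≤ 1 / 2 ^ (R0 ^ 2 + 1)) : ∀ k, State q A R0 k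
  | 0 => state_zero h0 h1 A (by omega) hq
  | k + 1 => state_succ h0 h1 hR0 (state_all h0 h1 hR0 hq k)

/-- Close pairs in every length. -/
lemma exists_close (h0 : 0 ≤ q) (h1 : q ≤ 1) (A : ℕ) {E : ℕ}
    (hE : (5000 * (A + 1)) ^ 2 + 1 ≤ E) (hq : 1 - q ≤ (1 / 2) ^ E) {n : ℕ} (hn : 1 ≤ n) :
    ∃ x y : List Bool, x.length = n ∧ y.length = n ∧ x ≠ y
      ∧ nrm (law q x - law q y) ≤ 1 / (n : ℝ) ^ (A + 1) := by
  obtain ⟨v, z, w, hkw, -, -, -, -, -, hcov⟩ := state_all h0 h1 (A := A) rfl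
    (hq.trans (by
      rw [one_div_pow]
      exact one_div_le_one_div_of_le (by positivity) (pow_le_pow_right₀ one_le_two hE))) n
  exact hcov n hn (n.lt_two_pow_self.trans_le (Nat.pow_le_pow_right two_pos hkw))

/-- The lower bound on the number of traces. -/
theorem many_traces (A : ℕ) {q : ℝ} (h1 : q ≤ 1) {E : ℕ} (hE : (5000 * (A + 1)) ^ 2 + 1 ≤ E)
    (hq : 1 - q ≤ (1 / 2) ^ E) {n : ℕ} (hn : 1 ≤ n) (m : ℕ)
    (est : (Fin m → List Bool) → (Fin n → Bool) → ℝ) (he : ∀ T y, 0 ≤ est T y)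
    (hs : ∀ T, ∑ y, est T y = 1)
    (hc : ∀ x : Fin n → Bool, 2 / 3 ≤ ∑ T ∈ Fintype.piFinset (fun _ : Fin m => traces n),
      (∏ i, traceProb q (List.ofFn x) (T i)) * est T x) :
    n ^ A ≤ m := by
  have h0 : 0 ≤ q := by
    have : (1 / 2 : ℝ) ^ E ≤ 1 := pow_le_one₀ (by norm_num) (by norm_num)
    linarith
  obtain ⟨x, y, hx, hy, hxy, hd⟩ := exists_close h0 h1 A hE hq hn
  obtain ⟨f, hf⟩ := exists_ofFn hx
  obtain ⟨g, hg⟩ := exists_ofFn hy
  have key := two_point_tv h0 h1 est he hs hc (x := f) (y := g)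
    (fun e => hxy (by rw [← hf, ← hg, e])) (d := 1 / (n : ℝ) ^ (A + 1)) (by rw [hf, hg]; exact hd)
  have hn0 : (0 : ℝ) < n := by exact_mod_cast hn
  rw [mul_one_div, le_div_iff₀ (by positivity), pow_succ] at key
  rcases Nat.lt_or_ge 1 n with h2 | h2
  · have h2' : (2 : ℝ) ≤ n := by exact_mod_cast h2
    have : (n : ℝ) ^ A ≤ m := by nlinarith [pow_pos hn0 A]
    exact_mod_cast this
  · obtain h2' : n = 1 := by omega
    rw [h2', one_pow]
    rcases Nat.eq_zero_or_pos m with hm | hm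
    · exfalso
      rw [h2', hm] at key
      norm_num at key
    · exact hm

end Vale.Agent.P321.Poly
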