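import Vale.Agent.P321.Poly.Algebra
import Vale.Agent.P321.Poly.Binom
import Mathlib.Tactic.Module
import Mathlib.Algebra.Order.Ring.Pow
import Mathlib.Algebra.BigOperators.Field
import Mathlib.Tactic.NormNum
import Mathlib.Tactic.GCongr

/-! Powers of a probability element that overlaps with its neighbouring power are smooth. -/

namespace Vale.Agent.P321.Poly

open MonoidAlgebra Finset

variable {M : Type*} [Monoid M]

/-- The expansion `S n f = ∑ j, f j * (n.choose j) • (F ^ (n - j) * G ^ j)`, for commuting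
`F`, `G`. -/
noncomputable def bin (F G : MonoidAlgebra ℝ M) : ℕ → (ℕ → ℝ) → MonoidAlgebra ℝ M
  | 0, f => f 0 • (1 : MonoidAlgebra ℝ M)
  | n + 1, f => bin F G n f * F + bin F G n (sh f) * G

lemma bin_add (F G : MonoidAlgebra ℝ M) : ∀ (n : ℕ) (f g : ℕ → ℝ),
    bin F G n (f + g) = bin F G n f + bin F G n g
  | 0, f, g => by simp [bin, add_smul]
  | n + 1, f, g => by
    rw [bin, bin, bin, show sh (f + g) = sh f + sh g from rfl, bin_add F G n, bin_add F G n,
      add_mul, add_mul]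
    abel

lemma bin_sub (F G : MonoidAlgebra ℝ M) (n : ℕ) (f g : ℕ → ℝ) :
    bin F G n (f - g) = bin F G n f - bin F G n g := by
  rw [eq_sub_iff_add_eq, ← bin_add, sub_add_cancel]

lemma bin_zero (F G : MonoidAlgebra ℝ M) : ∀ n, bin F G n 0 = 0
  | 0 => by simp [bin]
  | n + 1 => by rw [bin, show sh 0 = 0 from rfl, bin_zero F G n]; simp

lemma bin_dlt (X : MonoidAlgebra ℝ M) (c : ℕ) : ∀ n j : ℕ,
    bin (X ^ c) (X ^ (c + 1)) n (dlt j) = (n.choose j : ℝ) • X ^ (n * c + j)
  | 0, 0 => by simp [bin, dlt]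
  | 0, j + 1 => by simp [bin, dlt]
  | n + 1, 0 => by
    rw [bin, show sh (dlt 0) = 0 by funext i; simp [sh, dlt], bin_zero, bin_dlt X c n 0, zero_mul,
      add_zero, smul_mul_assoc, ← pow_add]
    simp [add_mul]
  | n + 1, j + 1 => by
    rw [bin, show sh (dlt (j + 1)) = dlt j by funext i; simp [sh, dlt], bin_dlt X c n (j + 1),
      bin_dlt X c n j, smul_mul_assoc, smul_mul_assoc, ← pow_add, ← pow_add,
      show n * c + (j + 1) + c = (n + 1) * c + (j + 1) by ring,
      show n * c + j + (c + 1) = (n + 1) * c + (j + 1) by ring, ← add_smul, Nat.choose_succ_succ]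
    push_cast
    rw [add_comm]

/-- Expansion over the common part `Z` and the two small remainders. -/
lemma nrm_bin_le {F G Z P Q : MonoidAlgebra ℝ M} {e : ℝ} (hF : F = Z + P) (hG : G = Z + Q)
    (he : 0 ≤ e) (he1 : e ≤ 1) (hZ : nrm Z ≤ 1 - e) (hP : nrm P ≤ e) (hQ : nrm Q ≤ e) :
    ∀ (n : ℕ) (f : ℕ → ℝ), nrm (bin F G n f)
      ≤ ∑ b ∈ range (n + 1), (n.choose b : ℝ)
          * ((1 - e) ^ (n - b) * e ^ b * avg b (fun u => |avg (n - b) f u|) 0)
  | 0, f => by
    rw [bin, nrm_smul, Prb.one.nrm_eq]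
    simp [avg]
  | n + 1, f => by
    set φ : ℕ → ℕ → ℝ := fun b a => (1 - e) ^ a * e ^ b * avg b (fun u => |avg a f u|) 0
    have e1 : bin F G (n + 1) f
        = bin F G n (f + sh f) * Z + bin F G n f * P + bin F G n (sh f) * Q := by
      rw [bin, bin_add, add_mul, congrArg (bin F G n f * ·) hF, congrArg (bin F G n (sh f) * ·) hG,
        mul_add, mul_add]
      abel
    have ih := nrm_bin_le hF hG he he1 hZ hP hQ n
    have bd : ∀ g (Y : MonoidAlgebra ℝ M) (y : ℝ), nrm Y ≤ y →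
        nrm (bin F G n g * Y) ≤ y * ∑ b ∈ range (n + 1), (n.choose b : ℝ)
          * ((1 - e) ^ (n - b) * e ^ b * avg b (fun u => |avg (n - b) g u|) 0) := fun g Y y hy =>
      (nrm_mul_le _ _).trans ((mul_le_mul (ih g) hy (nrm_nonneg _)
        ((nrm_nonneg _).trans (ih g))).trans_eq (mul_comm _ _))
    rw [e1, sum_choose_succ_mul φ n]
    refine (nrm_add_le _ _).trans ((add_le_add ((nrm_add_le _ _).trans
      (add_le_add (bd _ Z _ hZ) (bd _ P _ hP))) (bd _ Q _ hQ)).trans_eq ?_)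
    rw [mul_sum, mul_sum, mul_sum, add_assoc, ← sum_add_distrib, ← sum_add_distrib,
      ← sum_add_distrib]
    refine sum_congr rfl fun b hb => ?_
    have hb' : b ≤ n := Nat.lt_succ_iff.1 (mem_range.1 hb)
    simp only [φ]
    rw [show n + 1 - b = n - b + 1 by omega, avg_succ b (fun u => |avg (n - b) f u|),
      ← avg_sh b (fun u => |avg (n - b) f u|), show (fun u => |avg (n - b) (sh f) u|)
        = sh (fun u => |avg (n - b) f u|) by funext u; rw [avg_sh]; rfl]
    rw [show avg (n - b + 1) f = avg (n - b) (f + sh f) from rfl, pow_succ (1 - e), pow_succ e]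
    ring

/-- The tail of the binomial law. -/
lemma tail_bound {t : ℕ} (ht : 1 ≤ t) {e : ℝ} (he : 0 ≤ e) (he8 : e ≤ 1 / 8) :
    (1 + 3 * e) ^ (2 * t + 1) / 2 ^ t ≤ 26 / t := by
  have ht0 : (0 : ℝ) < t := by exact_mod_cast ht
  calc (1 + 3 * e) ^ (2 * t + 1) / 2 ^ t ≤ (11 / 8 : ℝ) ^ (2 * t + 1) / 2 ^ t := by
        gcongr; linarith
    _ = 11 / 8 * (121 / 128) ^ t := by
        rw [pow_succ, pow_mul, show (121 / 128 : ℝ) = (11 / 8) ^ 2 / 2 by norm_num,
          div_pow ((11 / 8 : ℝ) ^ 2) 2 t]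
        ring
    _ ≤ 11 / 8 * (121 / 7 / t) := by
        gcongr
        have h := one_add_mul_le_pow (show (-2 : ℝ) ≤ 7 / 121 by norm_num) t
        rw [show (1 : ℝ) + 7 / 121 = 128 / 121 by norm_num] at h
        rw [show (121 / 128 : ℝ) = (128 / 121)⁻¹ by norm_num, inv_pow, le_div_iff₀ ht0,
          inv_mul_le_iff₀ (by positivity)]
        linarith
    _ ≤ _ := by
        rw [mul_div_assoc', div_le_div_iff_of_pos_right ht0]
        norm_num

/-- Common part of two probability elements. -/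
lemma exists_common {F G : MonoidAlgebra ℝ M} (hF : Prb F) (hG : Prb G) :
    ∃ Z P Q : MonoidAlgebra ℝ M, ∃ e : ℝ, F = Z + P ∧ G = Z + Q ∧ 0 ≤ e ∧ e ≤ 1 ∧
      nrm Z ≤ 1 - e ∧ nrm P ≤ e ∧ nrm Q ≤ e ∧ 2 * e ≤ nrm (G - F) := by
  classical
  set Z : MonoidAlgebra ℝ M := ofCoeff (F.coeff ⊓ G.coeff)
  have hz : ∀ a, Z.coeff a = min (F.coeff a) (G.coeff a) := fun a => rfl
  have nz : ∀ a, 0 ≤ Z.coeff a := fun a => by rw [hz]; exact le_min (hF.1 a) (hG.1 a)
  have np : ∀ a, 0 ≤ (F - Z).coeff a := fun a => by simp [hz]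
  have nq : ∀ a, 0 ≤ (G - Z).coeff a := fun a => by simp [hz]
  have eP : nrm (F - Z) = 1 - mass Z := by rw [nrm_of_nonneg np, mass_sub, hF.2]
  have eQ : nrm (G - Z) = 1 - mass Z := by rw [nrm_of_nonneg nq, mass_sub, hG.2]
  refine ⟨Z, F - Z, G - Z, 1 - mass Z, by abel, by abel, eP ▸ nrm_nonneg _, ?_,
    by rw [nrm_of_nonneg nz]; linarith, eP.le, eQ.le, ?_⟩
  · linarith [nrm_of_nonneg nz, nrm_nonneg Z]
  · set s := F.coeff.support ∪ G.coeff.support ∪ (F - Z).coeff.support ∪ (G - Z).coeff.support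
    rw [nrm_eq_sum (X := G - F) (s := s)
      (fun a ha => by
        have := Finsupp.support_sub (f := G.coeff) (g := F.coeff) (by simpa using ha)
        simp only [s, mem_union] at this ⊢
        tauto)]
    rw [nrm_eq_sum (X := F - Z) (s := s) (fun a ha => by simp only [s, mem_union]; tauto)] at eP
    rw [nrm_eq_sum (X := G - Z) (s := s) (fun a ha => by simp only [s, mem_union]; tauto)] at eQ
    rw [two_mul]
    nth_rewrite 1 [← eP]
    rw [← eQ, ← sum_add_distrib]
    refine sum_le_sum fun a _ => ?_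
    simp only [coeff_sub, Finsupp.sub_apply, hz]
    rcases le_total (F.coeff a) (G.coeff a) with h | h
    · rw [min_eq_left h, sub_self, abs_zero, zero_add]
    · rw [min_eq_right h, sub_self, abs_zero, add_zero, abs_sub_comm]

/-- Smoothing. -/
theorem smoothing {X : MonoidAlgebra ℝ M} (hX : Prb X) {c : ℕ} (hc : 1 ≤ c)
    (h : nrm (X ^ (c + 1) - X ^ c) ≤ 1 / 4) {lam T : ℕ} (hl : 1 ≤ lam)
    (hT : 4 * c * lam ^ 2 ≤ T) : nrm (X ^ T * (X - 1)) ≤ 28 / (lam : ℝ) := by
  obtain ⟨Z, P, Q, e, hF, hG, he, he1, hZ, hP, hQ, he2⟩ :=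
    exists_common (hX.pow c) (hX.pow (c + 1))
  have he8 : e ≤ 1 / 8 := by linarith
  set t := lam ^ 2 with ht
  have ht1 : 1 ≤ t := Nat.one_le_pow _ _ hl
  set K := 2 * t + 1 with hK
  set C := (K.choose t : ℝ) with hC
  have hC0 : 0 < C := by rw [hC]; exact_mod_cast Nat.choose_pos (show t ≤ K by omega)
  have key := nrm_bin_le hF hG he he1 hZ hP hQ K (dlt (t + 1) - dlt t)
  rw [bin_sub, bin_dlt, bin_dlt, hK, Nat.choose_symm_half, ← hK, ← hC, ← smul_sub, nrm_smul,
    abs_of_pos hC0] at key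
  have e1 : X ^ (K * c + (t + 1)) - X ^ (K * c + t) = X ^ (K * c + t) * (X - 1) := by
    rw [mul_sub, mul_one, ← pow_succ, add_assoc]
  rw [e1] at key
  have hl0 : (0 : ℝ) < lam := by exact_mod_cast hl
  have step : ∀ b ∈ range (K + 1), avg b (fun u => |avg (K - b) (dlt (t + 1) - dlt t) u|) 0
      ≤ C * (3 / (2 * (lam : ℝ)) + 4 ^ b / 2 ^ t) := by
    intro b hb
    have hbK : b ≤ K := Nat.lt_succ_iff.1 (mem_range.1 hb)
    rcases le_or_gt (2 * b) t with hbt | hbt
    · have := avg_abs_diff hl (m := K - b) hbt (by omega)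
      refine this.trans ?_
      rw [mul_comm]
      exact mul_le_mul_of_nonneg_left (le_add_of_nonneg_right (by positivity)) hC0.le
    · have := avg_abs_diff_le (t := t) (b := b) (m := K - b) (by omega)
      refine this.trans ?_
      rw [mul_comm]
      refine mul_le_mul_of_nonneg_left (le_add_of_nonneg_of_le (by positivity) ?_) hC0.le
      rw [le_div_iff₀ (by positivity), ← pow_succ', show (4 : ℝ) = 2 ^ 2 by norm_num, ← pow_mul]
      exact pow_le_pow_right₀ (by norm_num) (by omega)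
  have key2 : C * nrm (X ^ (K * c + t) * (X - 1))
      ≤ C * (3 / (2 * (lam : ℝ)) + (1 + 3 * e) ^ K / 2 ^ t) := by
    refine key.trans ?_
    calc _ ≤ ∑ b ∈ range (K + 1), (K.choose b : ℝ)
          * ((1 - e) ^ (K - b) * e ^ b * (C * (3 / (2 * (lam : ℝ)) + 4 ^ b / 2 ^ t))) := by
          refine sum_le_sum fun b hb => ?_
          have : 0 ≤ (1 - e) ^ (K - b) * e ^ b :=
            mul_nonneg (pow_nonneg (by linarith) _) (pow_nonneg he _)
          exact mul_le_mul_of_nonneg_left (mul_le_mul_of_nonneg_left (step b hb) this)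
            (Nat.cast_nonneg _)
      _ = C * (3 / (2 * (lam : ℝ)) * (e + (1 - e)) ^ K + (4 * e + (1 - e)) ^ K / 2 ^ t) := by
          rw [add_pow, add_pow, mul_sum, sum_div, ← sum_add_distrib, mul_sum]
          refine sum_congr rfl fun b _ => ?_
          rw [mul_pow]; ring
      _ = _ := by
          rw [add_sub_cancel, one_pow, mul_one]
          ring_nf
  refine (nrm_pow_mul_antitone hX (S := K * c + t) ?_ _).trans
    ((le_of_mul_le_mul_left key2 hC0).trans ?_)
  · have h2 : t ≤ t * c := Nat.le_mul_of_pos_right _ (by omega)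
    have h3 : c ≤ t * c := Nat.le_mul_of_pos_left _ (by omega)
    calc K * c + t = 2 * (t * c) + c + t := by rw [hK]; ring
      _ ≤ 4 * (t * c) := by omega
      _ = 4 * c * t := by ring
      _ ≤ T := hT
  · refine (add_le_add le_rfl (tail_bound ht1 he he8)).trans ?_
    have htR : (lam : ℝ) ≤ t := by exact_mod_cast Nat.le_self_pow two_ne_zero lam
    have h26 : 26 / (t : ℝ) ≤ 26 / lam := by gcongr
    have h3 : (3 : ℝ) / (2 * lam) = (3 / 2) / lam := by ring
    calc 3 / (2 * (lam : ℝ)) + 26 / (t : ℝ) ≤ (3 / 2) / lam + 26 / lam := by linarith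
      _ ≤ 28 / lam := by rw [← add_div]; gcongr; norm_num

/-- Smoothing at a dyadic accuracy. -/
theorem smoothing_dyadic {X : MonoidAlgebra ℝ M} (hX : Prb X) {v : ℕ}
    (h : nrm (X ^ (2 ^ v + 1) - X ^ 2 ^ v) ≤ 1 / 4) (k : ℕ) {T : ℕ}
    (hT : 2 ^ (v + 2 * k + 12) ≤ T) : nrm (X ^ T * (X - 1)) ≤ 1 / 2 ^ k := by
  refine (smoothing hX Nat.one_le_two_pow h (lam := 32 * 2 ^ k)
    (Nat.one_le_iff_ne_zero.2 (by positivity)) (le_trans (le_of_eq ?_) hT)).trans ?_
  · rw [show v + 2 * k + 12 = v + (k + k) + 12 by ring, pow_add, pow_add, pow_add]; ring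
  · push_cast
    rw [← div_div]
    gcongr
    norm_num

end Vale.Agent.P321.Poly
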