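import Vale.Agent.P321.Poly.Channel
import Vale.Agent.P321.Poly.Smoothing
import Mathlib.Tactic.NoncommRing

/-! From a close pair of words to a much closer pair of longer words. -/

namespace Vale.Agent.P321.Poly

open MonoidAlgebra Finset

variable {q : ℝ}

/-- The two Thue-Morse words of level `r` over the letters `A`, `B`. -/
def tm (A B : List Bool) : ℕ → List Bool × List Bool
  | 0 => (A, B)
  | r + 1 => ((tm A B r).1 ++ (tm A B r).2, (tm A B r).2 ++ (tm A B r).1)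

lemma tm_length {A B : List Bool} {W : ℕ} (hA : A.length = W) (hB : B.length = W) :
    ∀ r, (tm A B r).1.length = 2 ^ r * W ∧ (tm A B r).2.length = 2 ^ r * W
  | 0 => by simp [tm, hA, hB]
  | r + 1 => by
    obtain ⟨h1, h2⟩ := tm_length hA hB r
    simp only [tm, List.length_append, h1, h2]
    constructor <;> ring

lemma tm_ne {A B : List Bool} {W : ℕ} (hA : A.length = W) (hB : B.length = W) (hne : A ≠ B) :
    ∀ r, (tm A B r).1 ≠ (tm A B r).2
  | 0 => hne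
  | r + 1 => by
    intro h
    obtain ⟨h1, h2⟩ := tm_length hA hB r
    exact tm_ne hA hB hne r (List.append_inj h (h1.trans h2.symm)).1

lemma tm_near (h0 : 0 ≤ q) (h1 : q ≤ 1) {A B : List Bool} {δ : ℝ} (hδ0 : 0 ≤ δ)
    (hδ : nrm (law q B - law q A) ≤ δ) : ∀ r,
    nrm (law q (tm A B r).1 - law q A ^ 2 ^ r) ≤ 2 ^ r * δ ∧
      nrm (law q (tm A B r).2 - law q A ^ 2 ^ r) ≤ 2 ^ r * δ
  | 0 => by simpa [tm] using And.intro hδ0 hδ
  | r + 1 => by
    obtain ⟨e1, e2⟩ := tm_near h0 h1 hδ0 hδ r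
    have hp := (prb_law h0 h1 A).pow (2 ^ r)
    have h2 : 2 ^ (r + 1) = 2 ^ r + 2 ^ r := by ring
    simp only [tm, law_append, h2, pow_add (law q A)]
    refine ⟨(nrm_mul_sub_mul_le hp (prb_law h0 h1 _)).trans ?_,
      (nrm_mul_sub_mul_le hp (prb_law h0 h1 _)).trans ?_⟩ <;>
    · rw [pow_succ]; linarith

/-- The difference of the two padded words shrinks geometrically. -/
lemma tm_shrink (h0 : 0 ≤ q) (h1 : q ≤ 1) {A B : List Bool} {δ η : ℝ} {R s : ℕ} (hδ0 : 0 ≤ δ)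
    (hη0 : 0 ≤ η) (hδ : nrm (law q B - law q A) ≤ δ)
    (hη : nrm (law q A ^ s * (law q A - 1)) ≤ η) (hρ : 2 ^ R * η ≤ 1 / 2) :
    ∀ r ≤ R, ∀ a, r * s ≤ a →
      nrm (law q A ^ a * (law q (tm A B r).2 - law q (tm A B r).1) * law q A ^ a)
        ≤ δ * (2 ^ R * η) ^ r + 2 * 4 ^ r * δ ^ 2
  | 0, _, a, _ => by
    have hp := (prb_law h0 h1 A).pow a
    simp only [tm, pow_zero, mul_one]
    exact ((nrm_mul_prb_le hp).trans (nrm_prb_mul_le hp)).trans
      (hδ.trans (le_add_of_nonneg_right (by positivity)))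
  | r + 1, hr, a, ha => by
    set X := law q A
    set V := law q (tm A B r).1
    set V' := law q (tm A B r).2
    have hX : Prb X := prb_law h0 h1 A
    obtain ⟨e1, e2⟩ := tm_near h0 h1 hδ0 hδ r
    set M := 2 ^ r
    set D := V' - V
    set ε := V - X ^ M
    have hD : nrm D ≤ 2 * 2 ^ r * δ := by
      refine le_trans (le_of_eq ?_) ((nrm_sub_le (V' - X ^ M) (V - X ^ M)).trans ?_)
      · simp [D]
      · linarith
    obtain ⟨b, rfl⟩ : ∃ b, a = b + s := ⟨a - s, by rw [add_mul] at ha; omega⟩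
    have ih := tm_shrink h0 h1 hδ0 hη0 hδ hη hρ r (by omega) b (by rw [add_mul] at ha; omega)
    set β := δ * (2 ^ R * η) ^ r + 2 * 4 ^ r * δ ^ 2
    have hβ0 : 0 ≤ β := by positivity
    have hp := hX.pow (b + s)
    have split : X ^ (b + s) * (law q (tm A B (r + 1)).2 - law q (tm A B (r + 1)).1) * X ^ (b + s)
        = X ^ s * ((X ^ b * D * X ^ b) * (X ^ s * (X ^ M - 1)))
          - (X ^ s * (X ^ M - 1)) * (X ^ b * D * X ^ b) * X ^ s
          + X ^ (b + s) * (D * ε - ε * D) * X ^ (b + s) := by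
      have c1 : X ^ (b + s) = X ^ s * X ^ b := by rw [← pow_add, add_comm]
      have c2 : X ^ (b + s) = X ^ b * X ^ s := pow_add _ _ _
      have c3 : X ^ M * X ^ b = X ^ b * X ^ M := by rw [← pow_add, ← pow_add, add_comm]
      have c4 : X ^ M * X ^ s = X ^ s * X ^ M := by rw [← pow_add, ← pow_add, add_comm]
      simp only [tm, law_append]
      change X ^ (b + s) * (V' * V - V * V') * X ^ (b + s) = _
      have : V' * V - V * V' = (D * X ^ M - X ^ M * D) + (D * ε - ε * D) := by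
        simp only [D, ε]; noncomm_ring
      rw [this, mul_add, add_mul]
      congr 1
      conv_lhs => enter [1, 1]; rw [c1]
      conv_lhs => enter [2]; rw [c2]
      simp only [mul_sub, sub_mul, mul_assoc, mul_one]
      have c3' : ∀ Y, X ^ M * (X ^ b * Y) = X ^ b * (X ^ M * Y) := fun Y => by
        rw [← mul_assoc, c3, mul_assoc]
      have c4' : ∀ Y, X ^ M * (X ^ s * Y) = X ^ s * (X ^ M * Y) := fun Y => by
        rw [← mul_assoc, c4, mul_assoc]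
      simp only [c3', c4]
      try abel
    have bM : nrm (X ^ s * (X ^ M - 1)) ≤ 2 ^ r * η := by
      refine (nrm_pow_mul_pow_sub_one_le hX s M).trans ?_
      simp only [M, Nat.cast_pow, Nat.cast_ofNat]
      exact mul_le_mul_of_nonneg_left hη (by positivity)
    have t1 : nrm (X ^ s * ((X ^ b * D * X ^ b) * (X ^ s * (X ^ M - 1)))) ≤ β * (2 ^ r * η) :=
      (nrm_prb_mul_le (hX.pow s)).trans ((nrm_mul_le _ _).trans
        (mul_le_mul ih bM (nrm_nonneg _) hβ0))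
    have t2 : nrm ((X ^ s * (X ^ M - 1)) * (X ^ b * D * X ^ b) * X ^ s) ≤ 2 ^ r * η * β :=
      (nrm_mul_prb_le (hX.pow s)).trans ((nrm_mul_le _ _).trans
        (mul_le_mul bM ih (nrm_nonneg _) (by positivity)))
    have t3 : nrm (X ^ (b + s) * (D * ε - ε * D) * X ^ (b + s)) ≤ 4 * 4 ^ r * δ ^ 2 := by
      refine (nrm_mul_prb_le hp).trans ((nrm_prb_mul_le hp).trans ((nrm_sub_le _ _).trans
        ((add_le_add ((nrm_mul_le _ _).trans (mul_le_mul hD e1 (nrm_nonneg _) (by positivity)))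
          ((nrm_mul_le _ _).trans (mul_le_mul e1 hD (nrm_nonneg _) (by positivity)))).trans_eq ?_)))
      rw [show (4 : ℝ) ^ r = 2 ^ r * 2 ^ r by rw [← mul_pow]; norm_num]
      ring
    rw [split]
    refine ((nrm_add_le _ _).trans (add_le_add ((nrm_sub_le _ _).trans (add_le_add t1 t2)) t3)).trans ?_
    have h2r : 2 * (2 ^ r * η) ≤ 2 ^ R * η := by
      rw [← mul_assoc, ← pow_succ']
      exact mul_le_mul_of_nonneg_right (pow_le_pow_right₀ (by norm_num) hr) hη0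
    have hstep : 2 * (2 ^ r * η) * β ≤ 2 ^ R * η * β := mul_le_mul_of_nonneg_right h2r hβ0
    have hq : 2 ^ R * η * (2 * 4 ^ r * δ ^ 2) ≤ 1 / 2 * (2 * 4 ^ r * δ ^ 2) :=
      mul_le_mul_of_nonneg_right hρ (by positivity)
    have hnn : 0 ≤ 4 ^ r * δ ^ 2 := by positivity
    simp only [β] at hstep ⊢
    rw [pow_succ (2 ^ R * η), pow_succ (4 : ℝ)]
    linarith

lemma sq_bound (z R : ℕ) (h : 2 * R + 2 ≤ 2 * z) :
    (1 : ℝ) / 2 ^ z * (1 / 2 ^ z) + 2 * 4 ^ R * (1 / 2 ^ z) ^ 2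
      ≤ 1 / 2 ^ (2 * z - 2 * R - 2) := by
  obtain ⟨z0, hz0⟩ : ∃ z0, 2 * z = z0 + (2 * R + 2) := ⟨2 * z - (2 * R + 2), by omega⟩
  have h4 : (1 : ℝ) ≤ 4 ^ R := one_le_pow₀ (by norm_num)
  have hsq : (2 : ℝ) ^ z * 2 ^ z = 2 ^ z0 * (4 * 4 ^ R) := by
    rw [← pow_add, show z + z = z0 + (2 * R + 2) by omega, pow_add, pow_add, pow_mul]
    norm_num
    ring
  rw [show 2 * z - 2 * R - 2 = z0 by omega, one_div_mul_one_div, one_div_pow, sq, hsq,
    mul_one_div, ← add_div, div_le_div_iff₀ (by positivity) (by positivity)]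
  nlinarith [show (0 : ℝ) < 2 ^ z0 by positivity]

lemma smooth_near {M : Type*} [Monoid M] {X X' : MonoidAlgebra ℝ M} (hX : Prb X) (hX' : Prb X')
    {v z R j v' : ℕ} (hc : nrm (X ^ (2 ^ v + 1) - X ^ 2 ^ v) ≤ 1 / 4)
    (hd : nrm (X' - X ^ 2 ^ j) ≤ 2 ^ R * (1 / 2 ^ z))
    (hv' : v + 2 * (j + 3) + 12 ≤ j + v') (hz : v' + R + 5 ≤ z) :
    nrm (X' ^ (2 ^ v' + 1) - X' ^ 2 ^ v') ≤ 1 / 4 := by
  have hY := hX.pow (2 ^ j)
  have d1 := nrm_pow_sub_pow_le hX' hY (2 ^ v' + 1)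
  have d0 := nrm_pow_sub_pow_le hX' hY (2 ^ v')
  have mid : nrm ((X ^ 2 ^ j) ^ (2 ^ v' + 1) - (X ^ 2 ^ j) ^ 2 ^ v') ≤ 1 / 8 := by
    have hT : 2 ^ (v + 2 * (j + 3) + 12) ≤ 2 ^ j * 2 ^ v' := by
      rw [← pow_add]; exact Nat.pow_le_pow_right two_pos hv'
    rw [pow_succ (X ^ 2 ^ j), ← mul_sub_one, ← pow_mul]
    refine (nrm_pow_mul_pow_sub_one_le hX _ _).trans ?_
    refine (mul_le_mul_of_nonneg_left (smoothing_dyadic hX hc (j + 3) hT)
      (Nat.cast_nonneg _)).trans (le_of_eq ?_)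
    push_cast
    rw [pow_add]; field_simp; norm_num
  have small : ((2 : ℝ) ^ v' + 1) * (2 ^ R * (1 / 2 ^ z)) + 2 ^ v' * (2 ^ R * (1 / 2 ^ z))
      ≤ 1 / 8 := by
    have hle : (2 : ℝ) ^ (v' + R + 5) ≤ 2 ^ z := pow_le_pow_right₀ (by norm_num) hz
    have h1v : (1 : ℝ) ≤ 2 ^ v' := one_le_pow₀ (by norm_num)
    calc ((2 : ℝ) ^ v' + 1) * (2 ^ R * (1 / 2 ^ z)) + 2 ^ v' * (2 ^ R * (1 / 2 ^ z))
        ≤ 4 * 2 ^ v' * (2 ^ R * (1 / 2 ^ z)) := by
          rw [← add_mul]; gcongr; linarith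
      _ = 2 ^ (v' + R + 5) / 2 ^ z / 8 := by rw [pow_add, pow_add]; ring
      _ ≤ 1 / 8 := by
          gcongr
          exact (div_le_one (by positivity)).2 hle
  have m1 : ((2 ^ v' + 1 : ℕ) : ℝ) * nrm (X' - X ^ 2 ^ j)
      ≤ ((2 : ℝ) ^ v' + 1) * (2 ^ R * (1 / 2 ^ z)) := by
    push_cast; exact mul_le_mul_of_nonneg_left hd (by positivity)
  have m0 : ((2 ^ v' : ℕ) : ℝ) * nrm (X' - X ^ 2 ^ j)
      ≤ (2 : ℝ) ^ v' * (2 ^ R * (1 / 2 ^ z)) := by
    push_cast; exact mul_le_mul_of_nonneg_left hd (by positivity)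
  rw [show X' ^ (2 ^ v' + 1) - X' ^ 2 ^ v' = (X' ^ (2 ^ v' + 1) - (X ^ 2 ^ j) ^ (2 ^ v' + 1))
    + ((X ^ 2 ^ j) ^ (2 ^ v' + 1) - (X ^ 2 ^ j) ^ 2 ^ v')
    - (X' ^ 2 ^ v' - (X ^ 2 ^ j) ^ 2 ^ v') by abel]
  refine ((nrm_sub_le _ _).trans (add_le_add (nrm_add_le _ _) le_rfl)).trans ?_
  linarith

/-- One level of the construction. -/
lemma step (h0 : 0 ≤ q) (h1 : q ≤ 1) {A B : List Bool} {v z w R : ℕ} (hR : 1 ≤ R)
    (hA : A.length = 2 ^ w) (hB : B.length = 2 ^ w) (hne : A ≠ B)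
    (hδ : nrm (law q B - law q A) ≤ 1 / 2 ^ z)
    (hc : nrm (law q A ^ (2 ^ v + 1) - law q A ^ 2 ^ v) ≤ 1 / 4)
    (hz : 2 * v + 2 * (R + z / R + 1) + R + 31 + R + 5 ≤ z) :
    ∃ A' B' : List Bool, A'.length = 2 ^ (w + (v + 2 * (R + z / R + 1) + R + 13)) ∧
      B'.length = 2 ^ (w + (v + 2 * (R + z / R + 1) + R + 13)) ∧ A' ≠ B' ∧
      nrm (law q B' - law q A') ≤ 1 / 2 ^ (2 * z - 2 * R - 2) ∧
      nrm (law q A' ^ (2 ^ (2 * v + 2 * (R + z / R + 1) + R + 31) + 1)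
        - law q A' ^ 2 ^ (2 * v + 2 * (R + z / R + 1) + R + 31)) ≤ 1 / 4 := by
  set k := R + z / R + 1 with hk
  set j := v + 2 * k + R + 13 with hj
  set v' := 2 * v + 2 * k + R + 31 with hv'
  set δ : ℝ := 1 / 2 ^ z
  have hδ0 : 0 ≤ δ := by positivity
  set X := law q A
  have hX : Prb X := prb_law h0 h1 A
  obtain ⟨s, hs⟩ : ∃ s, s = 2 ^ (v + 2 * k + 12) := ⟨_, rfl⟩
  have hη : nrm (X ^ s * (X - 1)) ≤ 1 / 2 ^ k := smoothing_dyadic hX hc k hs.ge
  have hρ : (2 : ℝ) ^ R * (1 / 2 ^ k) = 1 / 2 ^ (z / R + 1) := by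
    rw [hk, add_assoc, pow_add]; field_simp
  have hρ2 : (2 : ℝ) ^ R * (1 / 2 ^ k) ≤ 1 / 2 := by
    rw [hρ]; gcongr; exact le_self_pow₀ (by norm_num) (Nat.succ_ne_zero _)
  have hρR : ((2 : ℝ) ^ R * (1 / 2 ^ k)) ^ R ≤ δ := by
    rw [hρ, div_pow, one_pow, ← pow_mul]
    simp only [δ]
    gcongr
    · norm_num
    · calc z = R * (z / R) + z % R := (Nat.div_add_mod z R).symm
        _ ≤ R * (z / R) + R := Nat.add_le_add_left (Nat.mod_lt z hR).le _
        _ = (z / R + 1) * R := by ring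
  obtain ⟨R', rfl⟩ : ∃ R', R = R' + 1 := ⟨R - 1, by omega⟩
  obtain ⟨a, ha⟩ : ∃ a, a + 2 ^ R' = 2 ^ R' * (2 * s) :=
    ⟨2 ^ R' * (2 * s) - 2 ^ R', Nat.sub_add_cancel (Nat.le_mul_of_pos_right _ (by rw [hs]; positivity))⟩
  have hj2 : a + 2 ^ (R' + 1) + a = 2 ^ j := by
    calc a + 2 ^ (R' + 1) + a = 2 * (a + 2 ^ R') := by ring
      _ = _ := by
          rw [ha]; rw [hs]
          rw [show j = v + 2 * k + 12 + R' + 1 + 1 by omega]; ring
  have has : (R' + 1) * s ≤ a := by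
    have h : R' + 1 ≤ 2 ^ R' := Nat.lt_two_pow_self
    have h2 : (R' + 1) * s ≤ 2 ^ R' * s := Nat.mul_le_mul_right _ h
    have h3 : 2 ^ R' ≤ 2 ^ R' * s := Nat.le_mul_of_pos_right _ (by rw [hs]; positivity)
    have h4 : 2 ^ R' * (2 * s) = 2 ^ R' * s + 2 ^ R' * s := by ring
    omega
  set V := (tm A B (R' + 1)).1
  set V' := (tm A B (R' + 1)).2
  obtain ⟨l1, l2⟩ := tm_length hA hB (R' + 1)
  have len : ∀ U : List Bool, U.length = 2 ^ (R' + 1) * 2 ^ w →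
      (rep a A ++ U ++ rep a A).length = 2 ^ (w + j) := by
    intro U hU
    simp only [List.length_append, length_rep, hA, hU]
    rw [pow_add 2 w j, ← hj2]; ring
  have lawA : ∀ U, law q (rep a A ++ U ++ rep a A) = X ^ a * law q U * X ^ a := by
    intro U; simp only [law_append, law_rep]; rfl
  refine ⟨rep a A ++ V ++ rep a A, rep a A ++ V' ++ rep a A, len _ l1, len _ l2, ?_, ?_, ?_⟩
  · intro h
    exact tm_ne hA hB hne (R' + 1)
      (List.append_cancel_left (List.append_cancel_right h))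
  · rw [lawA, lawA, ← sub_mul, ← mul_sub]
    refine (tm_shrink h0 h1 hδ0 (by positivity) hδ hη hρ2 (R' + 1) le_rfl a has).trans ?_
    exact le_trans (add_le_add (mul_le_mul_of_nonneg_left hρR hδ0) le_rfl)
      (sq_bound z (R' + 1) (by omega))
  · rw [lawA]
    set X' := X ^ a * law q V * X ^ a
    have hX' : Prb X' := ((hX.pow a).mul (prb_law h0 h1 V)).mul (hX.pow a)
    have hd : nrm (X' - X ^ 2 ^ j) ≤ 2 ^ (R' + 1) * δ := by
      rw [← hj2, pow_add, pow_add, ← sub_mul, ← mul_sub]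
      exact ((nrm_mul_prb_le (hX.pow a)).trans (nrm_prb_mul_le (hX.pow a))).trans
        (tm_near h0 h1 hδ0 hδ (R' + 1)).1
    exact smooth_near hX hX' hc hd (by omega) (by omega)

end Vale.Agent.P321.Poly
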